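import Vale.Agent.P235L.Fan
import Vale.Agent.P235.ST.H742.Contr
import Vale.Agent.P235.H134.Grid.Final

/-! P235: contractions of an almost embedded graph onto its vortices have bounded treewidth. -/

namespace Vale.Agent.P235L

open SimpleGraph Vale.Agent.P235 Vale.Agent.P235.H134 Vale.Agent.P235.ST.H742

theorem reach_of_conn {J : Type} {N : SimpleGraph J} {S T : Set J} (h : (N.induce S).Connected)
    (hST : ∀ z ∈ S, z ∉ T) {u v : J} (hu : u ∈ S) (hv : v ∈ S) : ReachOff N T u v := by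
  obtain ⟨w⟩ := h.preconnected ⟨u, hu⟩ ⟨v, hv⟩
  have key : ∀ (a b : S), (N.induce S).Walk a b → ReachOff N T a.1 b.1 := by
    intro a b r
    induction r with
    | @nil a => exact ReachOff.refl (hST _ a.2)
    | @cons a c b hac r ih => exact (ReachOff.adj (hST _ a.2) (hST _ c.2) hac).trans ih
  exact key _ _ w

/-- a large grid minor gives a fan on one colour class -/
theorem fan_of_grid {J ι : Type} [Finite ι] {N : SimpleGraph J} (col : J → ι) {p m : ℕ}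
    (hp : Nat.card ι ≤ p) (h : IsMinor (grid (p * m + 3)) N) :
    ∃ i, Fan N {a | col a = i} ∅ m := by
  classical
  obtain ⟨μ, h1, h2, h3⟩ := h
  have : Fintype ι := Fintype.ofFinite ι
  let r0 : Fin (p * m + 3) := ⟨0, by omega⟩
  let r1 : Fin (p * m + 3) := ⟨1, by omega⟩
  let r2 : Fin (p * m + 3) := ⟨2, by omega⟩
  have hne : ∀ z, ∃ a, a ∈ μ z := fun z => by
    obtain ⟨⟨a, ha⟩⟩ := (h1 z).nonempty
    exact ⟨a, ha⟩
  choose rep hrep using hne
  have : Nonempty ι := ⟨col (rep (r0, r0))⟩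
  obtain ⟨i, hi⟩ := Fintype.exists_le_card_fiber_of_mul_le_card
    (f := fun c : Fin (p * m + 3) => col (rep (r1, c))) (n := m) (by
      rw [Fintype.card_fin, ← Nat.card_eq_fintype_card]
      have := Nat.mul_le_mul_right m hp
      omega)
  obtain ⟨S, hS, hcard⟩ := Finset.exists_subset_card_eq hi
  let e : Fin m ↪o _ := S.orderEmbOfFin hcard
  have he : ∀ k, col (rep (r1, e k)) = i := by
    intro k
    have h5 := hS (S.orderEmbOfFin_mem hcard k)
    simpa using h5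
  have hrow : ∀ (ρ : Fin (p * m + 3)) (T : Set J), (∀ c, ∀ z ∈ μ (ρ, c), z ∉ T) →
      ∀ (k : ℕ) (hk : k < p * m + 3), ∀ u ∈ μ (ρ, ⟨k, hk⟩), ReachOff N T u (rep (ρ, r0)) := by
    intro ρ T hT k
    induction k with
    | zero => exact fun hk u hu => reach_of_conn (h1 _) (hT _) hu (hrep _)
    | succ k ih =>
      intro hk u hu
      obtain ⟨a, ha, b, hb, hab⟩ := h3 (ρ, ⟨k + 1, hk⟩) (ρ, ⟨k, by omega⟩)
        (boxProd_adj.2 (Or.inr ⟨pathGraph_adj.2 (Or.inr rfl), rfl⟩))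
      exact ((reach_of_conn (h1 _) (hT _) hu ha).trans
        (ReachOff.adj (hT _ _ ha) (hT _ _ hb) hab)).trans (ih _ b hb)
  have hcol : ∀ ρ : Fin (p * m + 3), (pathGraph (p * m + 3)).Adj r1 ρ → ∀ c,
      ∃ w : N.Walk (rep (r1, c)) (rep (ρ, r0)),
        ∀ z ∈ w.support, z ∈ μ (r1, c) ∨ ∃ c', z ∈ μ (ρ, c') := by
    intro ρ hρ c
    let T : Set J := {z | ¬ (z ∈ μ (r1, c) ∨ ∃ c', z ∈ μ (ρ, c'))}
    have t1 : ∀ z ∈ μ (r1, c), z ∉ T := fun z hz h => h (Or.inl hz)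
    have t2 : ∀ c', ∀ z ∈ μ (ρ, c'), z ∉ T := fun c' z hz h => h (Or.inr ⟨c', hz⟩)
    obtain ⟨a, ha, b, hb, hab⟩ := h3 (r1, c) (ρ, c) (boxProd_adj.2 (Or.inl ⟨hρ, rfl⟩))
    obtain ⟨w, hw⟩ := ((reach_of_conn (h1 _) t1 (hrep _) ha).trans
      (ReachOff.adj (t1 _ ha) (t2 _ _ hb) hab)).trans (hrow ρ T t2 c.1 c.2 b hb)
    exact ⟨w, fun z hz => not_not.1 (hw z hz)⟩
  choose P hP using hcol r0 (pathGraph_adj.2 (Or.inr rfl))
  choose Q hQ using hcol r2 (pathGraph_adj.2 (Or.inl rfl))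
  have hd : ∀ (z : J) (s t : Fin (p * m + 3) × Fin (p * m + 3)), z ∈ μ s → z ∈ μ t → s = t := by
    intro z s t hs ht
    by_contra hst
    exact Set.disjoint_left.1 (h2 s t hst) hs ht
  refine ⟨i, fun k => rep (r1, e k), rep (r0, r0), rep (r2, r0), fun k => P (e k),
    fun k => Q (e k), he, fun _ _ _ h => h, fun _ _ _ h => h, fun k l hkl z hz hz' => ?_⟩
  rcases hP _ z hz with a | ⟨c, a⟩ <;> rcases hQ _ z hz' with b | ⟨c', b⟩
  · exact hkl (e.injective (congrArg Prod.snd (hd z _ _ a b)))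
  · have := congrArg (fun s => s.1.val) (hd z _ _ a b)
    simp [r1, r2] at this
  · have := congrArg (fun s => s.1.val) (hd z _ _ a b)
    simp [r0, r1] at this
  · have := congrArg (fun s => s.1.val) (hd z _ _ a b)
    simp [r0, r2] at this

/-- the nodes whose bags meet a connected set form a subtree -/
theorem tree_union {J κ : Type} {N : SimpleGraph J} {T : SimpleGraph κ} {C : κ → Finset J}
    (hedge : ∀ u v, N.Adj u v → ∃ t, u ∈ C t ∧ v ∈ C t)
    (hsub : ∀ v, (T.induce {t | v ∈ C t}).Preconnected) (A : Set J)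
    (hA : ∀ a ∈ A, ∀ b ∈ A, ReachOff N Aᶜ a b) (U : Set κ)
    (hU : ∀ t, t ∈ U ↔ ∃ a ∈ A, a ∈ C t) : (T.induce U).Preconnected := by
  have one : ∀ a ∈ A, ∀ (s t : U), a ∈ C s.1 → a ∈ C t.1 → (T.induce U).Reachable s t := by
    intro a ha s t hs ht
    let φ : T.induce {t | a ∈ C t} →g T.induce U :=
      ⟨fun z => ⟨z.1, (hU _).2 ⟨a, ha, z.2⟩⟩, fun h => h⟩
    exact (hsub a ⟨s.1, hs⟩ ⟨t.1, ht⟩).map φ
  have key : ∀ (a b : J) (w : N.Walk a b), (∀ z ∈ w.support, z ∉ Aᶜ) → ∀ (s t : U),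
      a ∈ C s.1 → b ∈ C t.1 → (T.induce U).Reachable s t := by
    intro a b w
    induction w with
    | nil => exact fun hw s t hs ht => one _ (not_not.1 (hw _ (by simp))) s t hs ht
    | @cons a c b hac r ih =>
      intro hw s t hs ht
      have ha : a ∈ A := not_not.1 (hw a (by simp))
      obtain ⟨t', h1, h2⟩ := hedge a c hac
      have ht' : t' ∈ U := (hU _).2 ⟨a, ha, h1⟩
      exact (one a ha s ⟨t', ht'⟩ hs h1).trans
        (ih (fun z hz => hw z (by simp [hz])) ⟨t', ht'⟩ t h2 ht)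
  intro s t
  obtain ⟨a, ha, hs⟩ := (hU _).1 s.2
  obtain ⟨b, hb, ht⟩ := (hU _).1 t.2
  obtain ⟨w, hw⟩ := hA a ha b hb
  exact key a b w hw s t hs ht

/-- vortices in a graph without apices, with the boundary paths in `G₀` -/
structure Core {V ι : Type} (G G₀ : SimpleGraph V) (w : ℕ) {n : ι → ℕ}
    (x : ∀ i, Fin (n i) → V) (B : ∀ i, Fin (n i) → Finset V) : Prop where
  edge : ∀ u v, G.Adj u v → G₀.Adj u v ∨ ∃ i j, u ∈ B i j ∧ v ∈ B i j
  inj : ∀ i, Function.Injective (x i)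
  root : ∀ i j, x i j ∈ B i j
  card : ∀ i j, (B i j).card ≤ w + 1
  conv : ∀ i j k l, j ≤ k → k ≤ l → ∀ v ∈ B i j, v ∈ B i l → v ∈ B i k
  disj : ∀ i j i' j', i ≠ i' → Disjoint (B i j) (B i' j')
  meet : ∀ u v, G₀.Adj u v → ∀ i j, u ∈ B i j → ∃ k, u = x i k
  rim : ∀ i (j k : Fin (n i)), k.val = j.val + 1 → G₀.Adj (x i j) (x i k)

/-- all vertices of the vortices -/
def vset {V ι : Type} {n : ι → ℕ} (B : ∀ i, Fin (n i) → Finset V) : Set V :=
  {v | ∃ i j, v ∈ B i j}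

/-- the contraction of `G₀` onto the boundary vertices -/
def skel {V ι : Type} (G₀ : SimpleGraph V) {n : ι → ℕ} (x : ∀ i, Fin (n i) → V) (π : V → V) :
    SimpleGraph (Σ i, Fin (n i)) where
  Adj a b := a ≠ b ∧ ∃ u v, G₀.Adj u v ∧ π u = x a.1 a.2 ∧ π v = x b.1 b.2
  symm := ⟨fun _ _ ⟨h, u, v, huv, hu, hv⟩ => ⟨h.symm, v, u, huv.symm, hv, hu⟩⟩
  loopless := ⟨fun _ h => h.1 rfl⟩

variable {V ι : Type} {G G₀ : SimpleGraph V} {w : ℕ} {n : ι → ℕ} {x : ∀ i, Fin (n i) → V}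
  {B : ∀ i, Fin (n i) → Finset V} {π : V → V}

theorem Core.same (h : Core G G₀ w x B) {v : V} {i i' : ι} {j : Fin (n i)} {j' : Fin (n i')}
    (h1 : v ∈ B i j) (h2 : v ∈ B i' j') : i = i' := by
  by_contra hne
  exact Finset.disjoint_left.1 (h.disj i j i' j' hne) h1 h2

theorem Core.xinj (h : Core G G₀ w x B) {a b : Σ i, Fin (n i)} (e : x a.1 a.2 = x b.1 b.2) :
    a = b := by
  obtain ⟨i, j⟩ := a
  obtain ⟨i', j'⟩ := b
  have h1 : i = i' := h.same (h.root i j) (by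
    have e' : x i j = x i' j' := e
    rw [e']
    exact h.root i' j')
  subst h1
  have h2 : j = j' := h.inj i e
  rw [h2]

theorem Core.fibre (h : Core G G₀ w x B) (hπ : RContr G (vset B) π) (v : V) :
    ∃ q : G₀.Walk v (π v), ∀ z ∈ q.support, π z = π v := by
  have key : ∀ (u y c : V) (q : G.Walk u y), (∀ z ∈ q.support, π z = c) →
      ∃ q' : G₀.Walk u y, ∀ z ∈ q'.support, π z = c := by
    intro u y c q
    induction q with
    | nil => exact fun hq => ⟨Walk.nil, fun z hz => hq z (by simpa using hz)⟩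
    | @cons u a y hua r ih =>
      intro hq
      obtain ⟨q', hq'⟩ := ih fun z hz => hq z (by simp [hz])
      have hu : π u = c := hq u (by simp)
      have ha : π a = c := hq a (by simp)
      rcases h.edge u a hua with h0 | ⟨i, j, h1, h2⟩
      · refine ⟨Walk.cons h0 q', fun z hz => ?_⟩
        rw [Walk.support_cons, List.mem_cons] at hz
        rcases hz with rfl | hz
        · exact hu
        · exact hq' z hz
      · rw [hπ.id u ⟨i, j, h1⟩] at hu
        rw [hπ.id a ⟨i, j, h2⟩] at ha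
        exact absurd (hu.trans ha.symm) hua.ne
  obtain ⟨q, hq⟩ := hπ.conn v
  exact key v (π v) (π v) q hq

theorem Core.ends (h : Core G G₀ w x B) (hπ : RContr G (vset B) π) {u v : V} (huv : G₀.Adj u v) :
    ∃ a : Σ i, Fin (n i), π u = x a.1 a.2 := by
  obtain ⟨i, j, hij⟩ := hπ.mem u
  obtain ⟨q, -⟩ := h.fibre hπ u
  have h1 : ∃ z, G₀.Adj (π u) z := by
    by_cases e : u = π u
    · exact ⟨v, e ▸ huv⟩
    · have key : ∀ (a b : V) (r : G₀.Walk a b), a ≠ b → ∃ z, G₀.Adj a z := by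
        intro a b r hab
        cases r with
        | nil => exact absurd rfl hab
        | cons h _ => exact ⟨_, h⟩
      exact key _ _ q.reverse fun e' => e e'.symm
  obtain ⟨z, hz⟩ := h1
  obtain ⟨k, hk⟩ := h.meet _ _ hz i j hij
  exact ⟨⟨i, k⟩, hk⟩

theorem Core.lift (h : Core G G₀ w x B) (hπ : RContr G (vset B) π) {a b : Σ i, Fin (n i)}
    (r : (skel G₀ x π).Walk a b) : ∃ q : G₀.Walk (x a.1 a.2) (x b.1 b.2),
      ∀ z ∈ q.support, ∃ c ∈ r.support, π z = x c.1 c.2 := by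
  induction r with
  | @nil a =>
    refine ⟨Walk.nil, fun z hz => ⟨a, by simp, ?_⟩⟩
    rw [Walk.support_nil, List.mem_singleton] at hz
    rw [hz]
    exact hπ.id _ ⟨_, _, h.root _ _⟩
  | @cons a c b hac r ih =>
    obtain ⟨q, hq⟩ := ih
    obtain ⟨-, u, v, huv, hu, hv⟩ := id hac
    obtain ⟨q1, hq1⟩ := h.fibre hπ u
    obtain ⟨q2, hq2⟩ := h.fibre hπ v
    refine ⟨((q1.reverse.append (Walk.cons huv q2)).copy hu hv).append q, fun z hz => ?_⟩
    rw [Walk.mem_support_append_iff, Walk.support_copy, Walk.mem_support_append_iff,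
      Walk.support_reverse, List.mem_reverse, Walk.support_cons, List.mem_cons] at hz
    rcases hz with (hz | rfl | hz) | hz
    · exact ⟨a, by simp, (hq1 z hz).trans hu⟩
    · exact ⟨a, by simp, hu⟩
    · exact ⟨c, by simp, (hq2 z hz).trans hv⟩
    · obtain ⟨c', h1, h2⟩ := hq z hz
      exact ⟨c', by simp [h1], h2⟩

theorem Core.fan (h : Core G G₀ w x B) (hπ : RContr G (vset B) π) {m : ℕ} {i : ι}
    (hf : Fan (skel G₀ x π) {a | a.1 = i} ∅ m) : Fan G₀ (Set.range (x i)) ∅ m := by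
  obtain ⟨y, t, b, p, q, h1, -, -, h4⟩ := hf
  choose P hP using fun k => h.lift hπ (p k)
  choose Q hQ using fun k => h.lift hπ (q k)
  refine ⟨fun k => x (y k).1 (y k).2, x t.1 t.2, x b.1 b.2, P, Q, fun k => ?_,
    fun _ _ _ h => h, fun _ _ _ h => h, fun k l hkl z hz hz' => ?_⟩
  · have h5 : (y k).1 = i := h1 k
    show x (y k).1 (y k).2 ∈ Set.range (x i)
    rw [← h5]
    exact ⟨_, rfl⟩
  · obtain ⟨c, hc, e⟩ := hP k z hz
    obtain ⟨c', hc', e'⟩ := hQ l z hz'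
    have : c = c' := h.xinj (e.symm.trans e')
    subst this
    exact h4 k l hkl c hc hc'

/-- the bags which contain a vertex are joined along the boundary path -/
theorem Core.along (h : Core G G₀ w x B) (hπ : RContr G (vset B) π) (v : V) :
    ∀ a ∈ {a : Σ i, Fin (n i) | v ∈ B a.1 a.2}, ∀ b ∈ {a : Σ i, Fin (n i) | v ∈ B a.1 a.2},
      ReachOff (skel G₀ x π) {a : Σ i, Fin (n i) | v ∈ B a.1 a.2}ᶜ a b := by
  have key : ∀ (i : ι) (j : Fin (n i)), v ∈ B i j → ∀ (k : ℕ) (hk : k < n i), j.val ≤ k →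
      v ∈ B i ⟨k, hk⟩ →
      ReachOff (skel G₀ x π) {a : Σ i, Fin (n i) | v ∈ B a.1 a.2}ᶜ ⟨i, j⟩ ⟨i, ⟨k, hk⟩⟩ := by
    intro i j hj k
    induction k with
    | zero =>
      intro hk hjk hv
      have : j = ⟨0, hk⟩ := Fin.ext (by simpa using hjk)
      subst this
      exact ReachOff.refl (not_not.2 hj)
    | succ k ih =>
      intro hk hjk hv
      rcases hjk.eq_or_lt with e | hlt
      · have : j = ⟨k + 1, hk⟩ := Fin.ext e
        subst this
        exact ReachOff.refl (not_not.2 hj)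
      · have hk' : k < n i := by omega
        have hv' : v ∈ B i ⟨k, hk'⟩ := h.conv i j ⟨k, hk'⟩ ⟨k + 1, hk⟩
          (Fin.le_def.2 (by simp only; omega)) (Fin.le_def.2 (by simp)) v hj hv
        refine (ih hk' (by omega) hv').trans (ReachOff.adj (not_not.2 hv') (not_not.2 hv) ?_)
        have hadj := h.rim i ⟨k, hk'⟩ ⟨k + 1, hk⟩ rfl
        refine ⟨fun e => hadj.ne (congrArg (fun a : Σ i, Fin (n i) => x a.1 a.2) e),
          _, _, hadj, hπ.id _ ⟨_, _, h.root _ _⟩, hπ.id _ ⟨_, _, h.root _ _⟩⟩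
  rintro ⟨i, j⟩ ha ⟨i', j'⟩ hb
  have e : i = i' := h.same ha hb
  subst e
  rcases le_total j.val j'.val with hl | hl
  · exact key i j ha j'.1 j'.2 hl hb
  · exact (key i j' hb j.1 j.2 hl ha).symm

theorem Core.skel_connected (h : Core G G₀ w x B) (hπ : RContr G (vset B) π) (hc : G.Connected) :
    (skel G₀ x π).Connected := by
  have same : ∀ (v : V) (a b : Σ i, Fin (n i)), v ∈ B a.1 a.2 → v ∈ B b.1 b.2 →
      (skel G₀ x π).Reachable a b := by
    intro v a b ha hb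
    obtain ⟨r, -⟩ := h.along hπ v a ha b hb
    exact ⟨r⟩
  have key : ∀ (u v : V) (r : G.Walk u v) (a b : Σ i, Fin (n i)), π u ∈ B a.1 a.2 →
      π v ∈ B b.1 b.2 → (skel G₀ x π).Reachable a b := by
    intro u v r
    induction r with
    | nil => exact fun a b ha hb => same _ a b ha hb
    | @cons u c v huc r ih =>
      intro a b ha hb
      rcases h.edge u c huc with h0 | ⟨i, j, h1, h2⟩
      · obtain ⟨a1, e1⟩ := h.ends hπ h0
        obtain ⟨a2, e2⟩ := h.ends hπ h0.symm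
        have r1 := same _ a a1 ha (by rw [e1]; exact h.root _ _)
        have r2 := ih a2 b (by rw [e2]; exact h.root _ _) hb
        by_cases e : a1 = a2
        · subst e
          exact r1.trans r2
        · have hadj : (skel G₀ x π).Adj a1 a2 := ⟨e, u, c, h0, e1, e2⟩
          exact (r1.trans hadj.reachable).trans r2
      · have e1 := hπ.id u ⟨i, j, h1⟩
        have e2 := hπ.id c ⟨i, j, h2⟩
        exact (same _ a ⟨i, j⟩ ha (by rw [e1]; exact h1)).trans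
          (ih ⟨i, j⟩ b (by rw [e2]; exact h2) hb)
  obtain ⟨v0⟩ := hc.nonempty
  obtain ⟨i0, j0, -⟩ := hπ.mem v0
  have : Nonempty (Σ i, Fin (n i)) := ⟨⟨i0, j0⟩⟩
  refine ⟨fun a b => ?_⟩
  obtain ⟨r⟩ := hc.preconnected (x a.1 a.2) (x b.1 b.2)
  refine key _ _ r a b ?_ ?_
  · rw [hπ.id _ ⟨_, _, h.root _ _⟩]
    exact h.root _ _
  · rw [hπ.id _ ⟨_, _, h.root _ _⟩]
    exact h.root _ _

theorem Core.expand (h : Core G G₀ w x B) (hπ : RContr G (vset B) π) {f : ℕ}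
    (ht : TreewidthLE (skel G₀ x π) f) :
    TreewidthLE (rgraph G (vset B) π) ((f + 1) * (w + 1)) := by
  classical
  obtain ⟨κ, hκ, T, C, h1, h2, h3, h4, h5⟩ := ht
  have hmem : ∀ (t : κ) (z : vset B),
      z ∈ ((C t).biUnion fun a => B a.1 a.2).subtype (· ∈ vset B) ↔
        ∃ a ∈ C t, z.1 ∈ B a.1 a.2 := by
    intro t z
    rw [Finset.mem_subtype, Finset.mem_biUnion]
  refine ⟨κ, hκ, T, fun t => ((C t).biUnion fun a => B a.1 a.2).subtype (· ∈ vset B), h1,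
    ?_, ?_, fun z => ?_, fun t => ?_⟩
  · rintro ⟨v, i, j, hv⟩
    obtain ⟨t, ht⟩ := h2 ⟨i, j⟩
    exact ⟨t, (hmem _ _).2 ⟨⟨i, j⟩, ht, hv⟩⟩
  · rintro y y' ⟨hne, u, v, huv, hu, hv⟩
    rcases h.edge u v huv with h0 | ⟨i, j, h6, h7⟩
    · obtain ⟨a1, e1⟩ := h.ends hπ h0
      obtain ⟨a2, e2⟩ := h.ends hπ h0.symm
      have e : a1 ≠ a2 := by
        rintro rfl
        exact hne (Subtype.ext (by rw [← hu, ← hv, e1, e2]))
      obtain ⟨t, t1, t2⟩ := h3 a1 a2 ⟨e, u, v, h0, e1, e2⟩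
      exact ⟨t, (hmem _ _).2 ⟨a1, t1, by rw [← hu, e1]; exact h.root _ _⟩,
        (hmem _ _).2 ⟨a2, t2, by rw [← hv, e2]; exact h.root _ _⟩⟩
    · obtain ⟨t, ht⟩ := h2 ⟨i, j⟩
      exact ⟨t, (hmem _ _).2 ⟨⟨i, j⟩, ht, by rw [← hu, hπ.id u ⟨i, j, h6⟩]; exact h6⟩,
        (hmem _ _).2 ⟨⟨i, j⟩, ht, by rw [← hv, hπ.id v ⟨i, j, h7⟩]; exact h7⟩⟩
  · refine tree_union h3 h4 _ (h.along hπ z.1) _ fun t => ?_
    show z ∈ ((C t).biUnion fun a => B a.1 a.2).subtype (· ∈ vset B) ↔ _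
    rw [hmem]
    exact ⟨fun ⟨a, h1, h2⟩ => ⟨a, h2, h1⟩, fun ⟨a, h1, h2⟩ => ⟨a, h2, h1⟩⟩
  · rw [Finset.card_subtype]
    refine (Finset.card_filter_le _ _).trans ((Finset.card_biUnion_le_card_mul _ _ (w + 1)
      fun a _ => h.card a.1 a.2).trans ?_)
    have := Nat.mul_le_mul_right (w + 1) (h5 t)
    omega

/-- the contractions onto the vortices have bounded treewidth -/
theorem core_tw (p m w : ℕ) : ∃ k : ℕ, ∀ (V ι : Type) [Finite ι] (G G₀ : SimpleGraph V)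
    (n : ι → ℕ) (x : ∀ i, Fin (n i) → V) (B : ∀ i, Fin (n i) → Finset V) (π : V → V),
    Nat.card ι ≤ p → G.Connected → Core G G₀ w x B → (∀ i, ¬ Fan G₀ (Set.range (x i)) ∅ m) →
    RContr G (vset B) π → TreewidthLE (rgraph G (vset B) π) k := by
  obtain ⟨f, hf⟩ := excludedGrid (p * m + 3)
  refine ⟨(f + 1) * (w + 1), fun V ι _ G G₀ n x B π hp hc h hno hπ => h.expand hπ ?_⟩
  by_contra hcon
  obtain ⟨i, hi⟩ := fan_of_grid (fun a : Σ i, Fin (n i) => a.1) hp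
    (hf _ _ (h.skel_connected hπ hc) hcon)
  exact hno i (h.fan hπ hi)

end Vale.Agent.P235L
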