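import Vale.Agent.P235L.Defs
import Vale.Agent.P235L.Tw
import Vale.Agent.P235L.Retr
import Vale.Agent.P235.ST.H945.FinalW
import Vale.Agent.P235.ST.H172.Topo
import Vale.Agent.P235.ST.H645.Non
import Vale.Agent.P235F.Main
import Vale.Agent.P235.H536.Sharp
import Vale.Agent.P235.H23.BadK
import Vale.Agent.P235.H406.Mono

/-! P235: almost embeddable graphs have bounded `c₁`. -/

namespace Vale.Agent.P235L

open SimpleGraph Vale.Agent.P235 Vale.Agent.P235.H134 Vale.Agent.P235.ST.H742 Vale.Agent.P235U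

theorem bd_of {V : Type} [Finite V] {G : SimpleGraph V} (hG : G.Connected) {C : ℝ}
    (h : DistortionLE G C) : Bd G C := ⟨h, P235F.gap_of hG h⟩

theorem surf : ∃ A : ℝ, 1 ≤ A ∧ ∀ (g : ℕ) (V : Type) [Finite V] (G : SimpleGraph V),
    G.Connected → OnSurface g G → DistortionLE G (A * Real.log (g + 2)) := by
  obtain ⟨C, hC, h, -⟩ := ST.H945.planarNear
  refine ⟨70000000 * (2 * C + 2), by linarith, fun g V _ G hG hs => ?_⟩
  have hl := ST.H690.log_lb g
  have e : C ≤ 2 * C * Real.log ((g : ℝ) + 2) := by nlinarith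
  rcases hs with hs | hs
  · exact (ST.H690.surf_c hC h g V G hG hs).mono (by nlinarith)
  · exact (ST.H645.sign_c hC h g V G hG hs).mono (by nlinarith)

theorem core_bd (p m w : ℕ) (D : ℝ) : ∃ K : ℝ, 0 ≤ K ∧ ∀ (V ι : Type) [Finite V] [Finite ι]
    (G G₀ : SimpleGraph V) (n : ι → ℕ) (x : ∀ i, Fin (n i) → V) (B : ∀ i, Fin (n i) → Finset V),
    Nat.card ι ≤ p → G.Connected → Core G G₀ w x B → (∀ i, ¬ Fan G₀ (Set.range (x i)) ∅ m) →
    (∀ (W : Type) [Finite W] (H : SimpleGraph W) (f : W → V), H.Connected →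
      Function.Injective f → (∀ a b, H.Adj a b → G₀.Adj (f a) (f b)) → DistortionLE H D) →
    DistortionLE G K := by
  obtain ⟨k, hk⟩ := core_tw p m w
  obtain ⟨A, hA⟩ := H957.tw_bounded k
  obtain ⟨r, -, hr⟩ := H23.badKStmt H406.mono D
  obtain ⟨C, hC1, hC⟩ := conRetr r
  have a1 := le_max_right A 1
  have d1 := le_max_right D 1
  have e1 : (1 : ℝ) ≤ max A 1 * C := one_le_mul_of_one_le_of_one_le a1 hC1
  refine ⟨3400000 * max D 1 * (max A 1 * C), by positivity, ?_⟩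
  intro V ι _ _ G G₀ n x B hp hc h hno hD
  by_cases hX : (vset B).Nonempty
  · have hcomp : ∀ u ∉ vset B, DistortionLE (G.induce (compSet G (vset B) u)) D := by
      intro u hu
      refine hD _ _ Subtype.val (comp_connected hu) Subtype.val_injective fun a b hab => ?_
      rcases h.edge a.1 b.1 hab with h0 | ⟨i, j, h1, -⟩
      · exact h0
      · exact absurd ⟨i, j, h1⟩ (ReachOff.right a.2)
    refine thmT hc hX a1 d1 hC1 (fun ℓ hℓ => hC V G ℓ hc hℓ _ hX fun u hu hm => ?_)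
      (fun π hπ => ?_) fun u hu => (hcomp u hu).mono (le_max_left _ _)
    · exact hr _ _ (comp_connected hu) hm (hcomp u hu)
    · exact (hA _ _ (rgraph_connected hπ hc hX)
        (hk V ι G G₀ n x B π hp hc h hno hπ)).mono (le_max_left _ _)
  · refine (hD V G id hc Function.injective_id fun a b hab => ?_).mono ?_
    · rcases h.edge a b hab with h0 | ⟨i, j, h1, -⟩
      · exact h0
      · exact absurd ⟨a, i, j, h1⟩ hX
    · have := le_max_left D 1
      nlinarith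

theorem Core.restrict {V ι : Type} {G G₀ : SimpleGraph V} {w : ℕ} {n : ι → ℕ}
    {x : ∀ i, Fin (n i) → V} {B : ∀ i, Fin (n i) → Finset V} (h : Core G G₀ w x B) (K : Set V)
    [DecidablePred (· ∈ K)] (h0 : ∀ u ∈ K, ∀ v, G₀.Adj u v → v ∈ K)
    (hB : ∀ u ∈ K, ∀ v i j, u ∈ B i j → v ∈ B i j → v ∈ K) :
    Core (ι := {i // ∀ j, x i j ∈ K}) (G.induce K) (G₀.induce K) w (n := fun i => n i.1)
      (fun i j => ⟨x i.1 j, i.2 j⟩) (fun i j => (B i.1 j).subtype (· ∈ K)) := by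
  have hall : ∀ i j, x i j ∈ K → ∀ j', x i j' ∈ K := by
    intro i
    have key : ∀ (k : ℕ) (hk : k < n i), x i ⟨k, hk⟩ ∈ K ↔ x i ⟨0, by omega⟩ ∈ K := by
      intro k
      induction k with
      | zero => exact fun _ => Iff.rfl
      | succ k ih =>
        intro hk
        have hadj := h.rim i ⟨k, by omega⟩ ⟨k + 1, hk⟩ rfl
        rw [← ih (by omega)]
        exact ⟨fun a => h0 _ a _ hadj.symm, fun a => h0 _ a _ hadj⟩
    intro j hj j'
    exact (key j'.1 j'.2).2 ((key j.1 j.2).1 hj)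
  refine ⟨fun u v huv => ?_, fun i j k e => h.inj i.1 (congrArg Subtype.val e),
    fun i j => Finset.mem_subtype.2 (h.root _ _), fun i j => ?_, fun i j k l hjk hkl v h1 h2 => ?_,
    fun i j i' j' hne => ?_, fun u v huv i j hu => ?_, fun i j k e => h.rim i.1 j k e⟩
  · rcases h.edge u.1 v.1 huv with a | ⟨i, j, h1, h2⟩
    · exact Or.inl a
    · exact Or.inr ⟨⟨i, hall i j (hB _ u.2 _ i j h1 (h.root i j))⟩, j,
        Finset.mem_subtype.2 h1, Finset.mem_subtype.2 h2⟩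
  · rw [Finset.card_subtype]
    exact (Finset.card_filter_le _ _).trans (h.card _ _)
  · exact Finset.mem_subtype.2 (h.conv i.1 j k l hjk hkl v.1 (Finset.mem_subtype.1 h1)
      (Finset.mem_subtype.1 h2))
  · refine Finset.disjoint_left.2 fun v h1 h2 => hne (Subtype.ext ?_)
    exact h.same (Finset.mem_subtype.1 h1) (Finset.mem_subtype.1 h2)
  · obtain ⟨k, hk⟩ := h.meet u.1 v.1 huv i.1 j (Finset.mem_subtype.1 hu)
    exact ⟨k, Subtype.ext hk⟩

/-- `G₀` with the boundary paths -/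
def rims {V ι : Type} (G₀ : SimpleGraph V) {n : ι → ℕ} (x : ∀ i, Fin (n i) → V) :
    SimpleGraph V :=
  fromRel fun u v => G₀.Adj u v ∨
    ∃ (i : ι) (j k : Fin (n i)), k.val = j.val + 1 ∧ u = x i j ∧ v = x i k

/-- and with the bags filled -/
def full {V ι : Type} (G₁ : SimpleGraph V) {n : ι → ℕ} (B : ∀ i, Fin (n i) → Finset V) :
    SimpleGraph V :=
  fromRel fun u v => G₁.Adj u v ∨ ∃ i j, u ∈ B i j ∧ v ∈ B i j

theorem Vortices.core {V : Type} {G G₀ : SimpleGraph V} {A : Set V} {w p : ℕ} {n : Fin p → ℕ}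
    {x : ∀ i, Fin (n i) → V} {B : ∀ i, Fin (n i) → Finset V} (h : Vortices G G₀ A w x B) :
    Core (full (rims G₀ x) B) (rims G₀ x) w x B := by
  refine ⟨fun u v huv => ?_, h.inj, h.root, h.card, h.conv, h.disj, fun u v huv i j hu => ?_,
    fun i j k e => ?_⟩
  · rcases ((fromRel_adj _ _ _).1 huv).2 with (a | a) | (a | ⟨i, j, a, b⟩)
    · exact Or.inl a
    · exact Or.inr a
    · exact Or.inl a.symm
    · exact Or.inr ⟨i, j, b, a⟩
  · have key : ∀ i' j', u = x i' j' → ∃ k, u = x i k := by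
      intro i' j' e
      have : i = i' := by
        by_contra hne
        exact Finset.disjoint_left.1 (h.disj i j i' j' hne) hu (e ▸ h.root i' j')
      subst this
      exact ⟨j', e⟩
    rcases ((fromRel_adj _ _ _).1 huv).2 with (a | ⟨i', j', k', -, a, -⟩) |
      (a | ⟨i', j', k', -, -, a⟩)
    · exact h.meet u v a i j hu
    · exact key _ _ a
    · exact h.meet u v a.symm i j hu
    · exact key _ _ a
  · refine (fromRel_adj _ _ _).2 ⟨fun e' => ?_, Or.inl (Or.inr ⟨i, j, k, e, rfl, rfl⟩)⟩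
    have := congrArg Fin.val (h.inj i e')
    omega

theorem rims_fans {V : Type} {G₀ : SimpleGraph V} {p : ℕ} {n : Fin p → ℕ}
    {x : ∀ i, Fin (n i) → V} {u v : V} (h : (rims G₀ x).Adj u v) :
    (fans G₀ x).Adj (.inl u) (.inl v) := by
  obtain ⟨hne, h⟩ := (fromRel_adj _ _ _).1 h
  refine (fromRel_adj _ _ _).2 ⟨fun e => hne (Sum.inl_injective e), ?_⟩
  rcases h with (a | ⟨i, j, k, e, rfl, rfl⟩) | (a | ⟨i, j, k, e, rfl, rfl⟩)
  · exact Or.inl (Or.inl ⟨u, v, rfl, rfl, a⟩)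
  · exact Or.inl (Or.inr (Or.inr ⟨i, j, k, e, rfl, rfl⟩))
  · exact Or.inr (Or.inl ⟨v, u, rfl, rfl, a⟩)
  · exact Or.inr (Or.inr (Or.inr ⟨i, j, k, e, rfl, rfl⟩))

theorem noFan {U : Type} [Finite U] {K : SimpleGraph U} {g : ℕ} (hc : K.Connected)
    (hK : OnSurface g K) (h : U) : ¬ Fan K (K.neighborSet h) {h} (4 * (2 * (2 * g + 1) + 2)) := by
  rcases hK with ⟨σ, hσ⟩ | ⟨σ, sg, hσ⟩
  · exact fun hf => noFan_surf hc hσ h (Nat.lt_succ_self g) (hf.mono (by omega))
  · exact noFan_sign hc hσ h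

/-- **Almost embeddable graphs have bounded `c₁`.** -/
theorem almost (a g p w : ℕ) : ∃ C : ℝ, ∀ (V : Type) [Finite V] (G : SimpleGraph V),
    G.Connected → AlmostEmb a g p w G → DistortionLE G C := by
  classical
  obtain ⟨A₀, -, hsurf⟩ := surf
  obtain ⟨K, hK0, hK⟩ := core_bd p (4 * (2 * (2 * g + 1) + 2)) w (A₀ * Real.log (g + 2))
  obtain ⟨C, -, hap⟩ := apex_log'
  refine ⟨C * (K + Real.log (a + 2)), ?_⟩
  rintro V _ G hc ⟨A, G₀, n, x, B, hA, hv, U, _, H, f, hH, hHs, hf, hfa⟩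
  refine hap K hK0 a V G hc A hA fun u hu => ?_
  let G₁ := rims G₀ x
  let G₂ := full G₁ B
  let S : Set V := compSet G₂ ∅ u
  have hu0 : u ∉ (∅ : Set V) := fun h => h
  have hcl : ∀ v ∈ S, ∀ z, G₂.Adj v z → z ∈ S := fun v hv z h =>
    ReachOff.trans hv (ReachOff.adj (fun h => h) (fun h => h) h)
  have h12 : ∀ v z, G₁.Adj v z → G₂.Adj v z := fun v z h =>
    (fromRel_adj _ _ _).2 ⟨h.ne, Or.inl (Or.inl h)⟩
  have hB2 : ∀ v z i j, v ≠ z → v ∈ B i j → z ∈ B i j → G₂.Adj v z := fun v z i j hne h1 h2 =>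
    (fromRel_adj _ _ _).2 ⟨hne, Or.inl (Or.inr ⟨i, j, h1, h2⟩)⟩
  have hG2 : ∀ v z, G.Adj v z → v ∉ A → z ∉ A → G₂.Adj v z := by
    intro v z h h1 h2
    rcases hv.edge v z h h1 h2 with h0 | ⟨i, j, h3, h4⟩
    · exact h12 _ _ ((fromRel_adj _ _ _).2 ⟨h0.ne, Or.inl (Or.inl h0)⟩)
    · exact hB2 _ _ i j h.ne h3 h4
  have hcore := hv.core.restrict S (fun v hv z h => hcl v hv z (h12 _ _ h))
    (fun v hv z i j h1 h2 => by
      by_cases e : v = z
      · exact e ▸ hv
      · exact hcl v hv z (hB2 _ _ i j e h1 h2))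
  have hfi : Function.Injective fun z : S => f (.inl z.1) := fun a b e =>
    Subtype.ext (Sum.inl_injective (hf e))
  have hfa' : ∀ a b : S, (G₁.induce S).Adj a b → H.Adj (f (.inl a.1)) (f (.inl b.1)) :=
    fun a b h => hfa _ _ (rims_fans h)
  have hmain : DistortionLE (G₂.induce S) K := by
    refine hK _ _ _ _ _ _ _ ?_ (comp_connected hu0) hcore (fun i hF => ?_) fun W _ H' φ h1 h2 h3 => ?_
    · exact (Finite.card_subtype_le _).trans (by simp)
    · refine noFan hH hHs (f (.inr i.1)) (hF.map _ hfi hfa' ?_ fun z _ e => ?_)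
      · rintro _ ⟨j, rfl⟩
        refine hfa _ _ ((fromRel_adj _ _ _).2 ⟨by simp, Or.inl (Or.inr (Or.inl ⟨i.1, j, rfl, rfl⟩))⟩)
      · exact Sum.inl_ne_inr (hf e)
    · exact (hsurf g U H hH hHs).emb (fun a => f (.inl (φ a).1)) (hfi.comp h2)
        (fun a b h => hfa' _ _ (h3 a b h)) hH h1
  have hsub : ∀ v, ReachOff G A u v → v ∈ S := by
    rintro v ⟨q, hq⟩
    have key : ∀ (a b : V) (r : G.Walk a b), (∀ z ∈ r.support, z ∉ A) → a ∈ S → b ∈ S := by
      intro a b r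
      induction r with
      | nil => exact fun _ h => h
      | @cons a c b hac r ih =>
        intro hr ha
        exact ih (fun z hz => hr z (by simp [hz]))
          (hcl a ha c (hG2 a c hac (hr a (by simp)) (hr c (by simp))))
    exact key u v q hq (ReachOff.refl hu0)
  exact hmain.emb (fun z : compSet G A u => ⟨z.1, hsub z.1 z.2⟩)
    (fun a b e => Subtype.ext (congrArg (fun z : S => z.1) e))
    (fun a b h => hG2 a.1 b.1 h (ReachOff.right a.2) (ReachOff.right b.2))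
    (comp_connected hu0) (comp_connected hu)

theorem final :
    (∃ C : ℝ, ∀ (V : Type) [Finite V] (G : SimpleGraph V), G.Connected → Planar G → Bd G C) ∧
    (∀ k : ℕ, ∃ C : ℝ, ∀ (V : Type) [Finite V] (G : SimpleGraph V), G.Connected →
      TreewidthLE G k → Bd G C) ∧
    ∀ a g p w : ℕ, ∃ C : ℝ, ∀ (V : Type) [Finite V] (G : SimpleGraph V), G.Connected →
      AlmostEmb a g p w G → Bd G C := by
  obtain ⟨C, -, h1, -⟩ := ST.H945.planarNear
  refine ⟨⟨C, fun V _ G hG h => bd_of hG (ST.H172.planar_of_plane h1 V G hG h)⟩, fun k => ?_,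
    fun a g p w => ?_⟩
  · obtain ⟨C, h⟩ := H957.tw_bounded k
    exact ⟨C, fun V _ G hG h' => bd_of hG (h V G hG h')⟩
  · obtain ⟨C, h⟩ := almost a g p w
    exact ⟨C, fun V _ G hG h' => bd_of hG (h V G hG h')⟩

end Vale.Agent.P235L
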