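import Vale.Agent.P235U99.Defs

/-! P235: almost embeddable graphs (Robertson and Seymour). Definitions only. -/

namespace Vale.Agent.P235L

open Vale.Agent.P235 Vale.Agent.P235U

/-- The graph `H`, connected or not, is drawn on a closed surface, orientable or not, of Euler genus
at most `g`: it is (isomorphic to) a subgraph of a finite connected graph which has a rotation
system of Euler genus at most `g`. -/
def Drawn (g : ℕ) {W : Type} (H : SimpleGraph W) : Prop :=
  ∃ (U : Type) (_ : Finite U) (K : SimpleGraph U) (f : W → U), K.Connected ∧ OnSurface g K ∧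
    Function.Injective f ∧ ∀ a b, H.Adj a b → K.Adj (f a) (f b)

/-- `G₀` with a fan in each of `p` discs: the centre of the disc `i` is a new vertex, adjacent to
the vertices `x i 0, x i 1, …` on the boundary of the disc, and consecutive ones of these are made
adjacent. -/
def fans {V : Type} (G₀ : SimpleGraph V) {p : ℕ} {n : Fin p → ℕ} (x : ∀ i, Fin (n i) → V) :
    SimpleGraph (V ⊕ Fin p) :=
  SimpleGraph.fromRel fun a b =>
    (∃ u v, a = .inl u ∧ b = .inl v ∧ G₀.Adj u v) ∨
    (∃ i j, a = .inr i ∧ b = .inl (x i j)) ∨
    ∃ (i : Fin p) (j k : Fin (n i)), k.val = j.val + 1 ∧ a = .inl (x i j) ∧ b = .inl (x i k)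

/-- `G - A` is the union of the graph `G₀` (vertices off the surface are isolated in it) and of `p`
disjoint vortices of width `w`. The vortex `i` has the distinct boundary vertices
`x i 0, x i 1, …` and the path decomposition `B i 0, B i 1, …` with `x i j ∈ B i j`, and it meets
`G₀` only in its boundary vertices. -/
structure Vortices {V : Type} (G G₀ : SimpleGraph V) (A : Set V) (w : ℕ) {p : ℕ} {n : Fin p → ℕ}
    (x : ∀ i, Fin (n i) → V) (B : ∀ i, Fin (n i) → Finset V) : Prop where
  edge : ∀ u v, G.Adj u v → u ∉ A → v ∉ A → G₀.Adj u v ∨ ∃ i j, u ∈ B i j ∧ v ∈ B i j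
  inj : ∀ i, Function.Injective (x i)
  root : ∀ i j, x i j ∈ B i j
  card : ∀ i j, (B i j).card ≤ w + 1
  conv : ∀ i j k l, j ≤ k → k ≤ l → ∀ v ∈ B i j, v ∈ B i l → v ∈ B i k
  disj : ∀ i j i' j', i ≠ i' → Disjoint (B i j) (B i' j')
  meet : ∀ u v, G₀.Adj u v → ∀ i j, u ∈ B i j → ∃ k, u = x i k

/-- `G` is `(a, g, p, w)`-almost embeddable: after deleting a set `A` of at most `a` apices it is
the union of a graph `G₀` drawn on a surface of Euler genus at most `g` and of at most `p` vortices
of width at most `w` in disjoint discs, whose interiors are disjoint from the drawing and whose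
boundaries pass through the boundary vertices of the vortices in their order; that is, `G₀` with a
fan in each disc is drawn on the surface. (A vortex with `n i = 0` is empty.) -/
def AlmostEmb (a g p w : ℕ) {V : Type} (G : SimpleGraph V) : Prop :=
  ∃ (A : Set V) (G₀ : SimpleGraph V) (n : Fin p → ℕ) (x : ∀ i, Fin (n i) → V)
    (B : ∀ i, Fin (n i) → Finset V),
    A.ncard ≤ a ∧ Vortices G G₀ A w x B ∧ Drawn g (fans G₀ x)

end Vale.Agent.P235L
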