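import Vale.Agent.P235.H206.SurfTop
import Vale.Agent.P235.ST.H645.Cover
import Mathlib.Data.Fin.Tuple.Sort
import Mathlib.Combinatorics.Pigeonhole

/-! P235: a graph on a surface has no large `K_{3,n}` minor one of whose three branch sets is a
vertex. -/

namespace Vale.Agent.P235L

open SimpleGraph Finset Vale.Agent.P235 Vale.Agent.P235.H206

/-- `n` vertices `y k` of `Y` with walks `p k` to a vertex `t` and `q k` to a vertex `b`, all outside
`Z`, such that `p k` and `q l` are disjoint for `k ≠ l` -/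
def Fan {V : Type} (G : SimpleGraph V) (Y Z : Set V) (n : ℕ) : Prop :=
  ∃ (y : Fin n → V) (t b : V) (p : ∀ k, G.Walk (y k) t) (q : ∀ k, G.Walk (y k) b),
    (∀ k, y k ∈ Y) ∧ (∀ k, ∀ z ∈ (p k).support, z ∉ Z) ∧ (∀ k, ∀ z ∈ (q k).support, z ∉ Z) ∧
    ∀ k l, k ≠ l → ∀ z ∈ (p k).support, z ∉ (q l).support

theorem Fan.map {V W : Type} {G : SimpleGraph V} {H : SimpleGraph W} {Y Z : Set V} {Y' Z' : Set W}
    {n : ℕ} (h : Fan G Y Z n) (f : V → W) (hf : Function.Injective f)
    (hadj : ∀ a b, G.Adj a b → H.Adj (f a) (f b)) (hY : ∀ y ∈ Y, f y ∈ Y')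
    (hZ : ∀ z, z ∉ Z → f z ∉ Z') : Fan H Y' Z' n := by
  obtain ⟨y, t, b, p, q, h1, h2, h3, h4⟩ := h
  let φ : G →g H := ⟨f, fun {a b} h => hadj a b h⟩
  refine ⟨fun k => f (y k), f t, f b, fun k => (p k).map φ, fun k => (q k).map φ,
    fun k => hY _ (h1 k), fun k z hz => ?_, fun k z hz => ?_, fun k l hkl z hz hz' => ?_⟩
  · rw [Walk.support_map, List.mem_map] at hz
    obtain ⟨a, ha, rfl⟩ := hz
    exact hZ a (h2 k a ha)
  · rw [Walk.support_map, List.mem_map] at hz
    obtain ⟨a, ha, rfl⟩ := hz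
    exact hZ a (h3 k a ha)
  · rw [Walk.support_map, List.mem_map] at hz hz'
    obtain ⟨a, ha, rfl⟩ := hz
    obtain ⟨a', ha', e⟩ := hz'
    have : a' = a := hf e
    subst this
    exact h4 k l hkl _ ha ha'

theorem run_const {α : Type} (φ : ℕ → α) {u v : ℕ} (huv : u ≤ v)
    (h : ∀ t, u ≤ t → t < v → φ (t + 1) = φ t) : φ v = φ u := by
  induction v, huv using Nat.le_induction with
  | base => rfl
  | succ v hv ih =>
    rw [h v hv (Nat.lt_succ_self v)]
    exact ih fun t h1 h2 => h t h1 (h2.trans (Nat.lt_succ_self v))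

theorem noFan_surf {V : Type} [Finite V] {G : SimpleGraph V} {g m : ℕ} {σ : Equiv.Perm G.Dart}
    (hc : G.Connected) (hσ : SurfMap g G σ) (h : V) (hm : g < m) :
    ¬ Fan G (G.neighborSet h) {h} (2 * m + 2) := by
  classical
  have : Fintype V := Fintype.ofFinite V
  have : Finite G.Dart := Finite.of_injective (fun d : G.Dart => d.toProd) Dart.toProd_injective
  have : Fintype G.Dart := Fintype.ofFinite _
  rintro ⟨y, t, b, p, q, h1, h2, h3, h4⟩
  let D : Fin (2 * m + 2) → G.Dart := fun k => ⟨(h, y k), h1 k⟩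
  have hyinj : Function.Injective y := by
    intro k l e
    by_contra hne
    exact h4 k l hne (y k) (p k).start_mem_support (by rw [e]; exact (q l).start_mem_support)
  have hDinj : Function.Injective D := fun k l e => hyinj (congrArg (fun d : G.Dart => d.snd) e)
  let d0 : G.Dart := D 0
  have hper : d0 ∈ Function.periodicPts σ := σ.injective.mem_periodicPts d0
  have hpos : ∀ k, ∃ i, i < Function.minimalPeriod σ d0 ∧ σ^[i] d0 = D k := by
    intro k
    obtain ⟨i, -, hi⟩ := (hσ.cyc d0 (D k) rfl).exists_pow_eq'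
    refine ⟨i % Function.minimalPeriod σ d0,
      Nat.mod_lt _ (Function.minimalPeriod_pos_of_mem_periodicPts hper), ?_⟩
    rw [Function.iterate_mod_minimalPeriod_eq, ← hi, Equiv.Perm.iterate_eq_pow]
  choose pos hpos1 hpos2 using hpos
  have hposinj : Function.Injective pos := by
    intro k l e
    apply hDinj
    rw [← hpos2 k, ← hpos2 l, e]
  let e : Equiv.Perm (Fin (2 * m + 2)) := Tuple.sort pos
  have hmono : StrictMono (pos ∘ e) :=
    (Tuple.monotone_sort pos).strictMono_of_injective (hposinj.comp e.injective)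
  let a : Fin (m + 1) → Fin (2 * m + 2) := fun i => ⟨2 * i, by omega⟩
  let c' : Fin (m + 1) → Fin (2 * m + 2) := fun i => ⟨2 * i + 1, by omega⟩
  let P : ∀ i : Fin (m + 1), G.Walk h t := fun i => Walk.cons (h1 (e (a i))) (p (e (a i)))
  let zz : Fin m → G.edgeSet → ZMod 2 := fun i => chain (P i.succ) + chain (P 0)
  have hz : ∀ i, bd G (zz i) = 0 := by
    intro i
    show bd G (chain (P i.succ) + chain (P 0)) = 0
    rw [map_add, bd_chain, bd_chain, self_add']
  obtain ⟨c, hc0, s, hs⟩ := exists_faces_comb hc hσ hm zz hz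
  -- darts off the walks
  have hE : ∀ d : G.Dart, (∀ i, d.fst ∉ (P i).support) → s ⟦d⟧ = s ⟦d.symm⟧ := by
    intro d hd
    have h5 : ∀ i, chain (P i) (eOf d) = 0 := by
      intro i
      have : d.edge ∉ (P i).edges := fun h => hd i ((P i).fst_mem_support_of_mem_edges h)
      simp [chain, eOf, List.count_eq_zero_of_not_mem this]
    have h6 := hs d
    rw [Finset.sum_eq_zero fun i _ => by
      show c i * (chain (P i.succ) (eOf d) + chain (P 0) (eOf d)) = 0
      rw [h5, h5, add_zero, mul_zero]] at h6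
    exact CharTwo.add_eq_zero.mp h6.symm
  have hfst : ∀ d d' : G.Dart, d.fst = d'.fst → (∀ i, d.fst ∉ (P i).support) →
      s ⟦d⟧ = s ⟦d'⟧ := by
    intro d d' hee he
    have h5 := perm_invariant σ (fun x => if x.fst = d.fst then s ⟦x⟧ else 0) (fun x => by
      show (if (σ x).fst = d.fst then s ⟦σ x⟧ else 0) = if x.fst = d.fst then s ⟦x⟧ else 0
      rw [hσ.fst]
      by_cases hx : x.fst = d.fst
      · rw [if_pos hx, if_pos hx, ← face_eq', ← hE x (by rw [hx]; exact he)]
      · rw [if_neg hx, if_neg hx]) (hσ.cyc d d' hee)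
    simpa [hee] using h5
  have hwalk : ∀ {u v : V} (w : G.Walk u v), (∀ x ∈ w.support, ∀ i, x ∉ (P i).support) →
      ∀ d d' : G.Dart, d.fst = u → d'.fst = v → s ⟦d⟧ = s ⟦d'⟧ := by
    intro u v w
    induction w with
    | nil =>
      intro hw d d' he he'
      exact hfst d d' (he.trans he'.symm) (by rw [he]; exact hw _ (by simp))
    | @cons u x v hux r ih =>
      intro hw d d' he he'
      have hu := hw u (by simp)
      rw [hfst d ⟨(u, x), hux⟩ he (by rw [he]; exact hu), hE ⟨(u, x), hux⟩ hu]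
      exact ih (fun y hy => hw y (by simp [hy])) _ d' rfl he'
  have hq : ∀ j, ∀ x ∈ (q (e (c' j))).support, ∀ i, x ∉ (P i).support := by
    intro j x hx i hxi
    replace hxi : x ∈ h :: (p (e (a i))).support := hxi
    rw [List.mem_cons] at hxi
    rcases hxi with rfl | hxi
    · exact h3 _ _ hx rfl
    · refine h4 _ _ (fun h => ?_) x hxi hx
      have := congrArg Fin.val (e.injective h)
      simp only [a, c'] at this
      omega
  have hb : ∀ j j', s ⟦D (e (c' j))⟧ = s ⟦D (e (c' j'))⟧ := by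
    have h5 : ∀ j, s ⟦D (e (c' j))⟧ = s ⟦(D (e (c' j))).symm⟧ := fun j =>
      (hE (D (e (c' j))).symm (hq j _ (q _).start_mem_support)).symm
    intro j j'
    rw [h5, h5]
    refine hwalk ((q (e (c' j))).append (q (e (c' j'))).reverse) (fun x hx => ?_) _ _ rfl rfl
    rw [Walk.mem_support_append_iff, Walk.support_reverse, List.mem_reverse] at hx
    exact hx.elim (hq j x) (hq j' x)
  -- darts at `h`
  have hch : ∀ (i : Fin (m + 1)) (d : G.Dart), d.fst = h →
      chain (P i) (eOf d) = if d = D (e (a i)) then 1 else 0 := by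
    intro i d hd
    have h5 : d.edge ∉ (p (e (a i))).edges := fun h' =>
      h2 _ _ ((p (e (a i))).fst_mem_support_of_mem_edges h') hd
    have h6 : chain (P i) (eOf d) =
        ((List.count d.edge (s(h, y (e (a i))) :: (p (e (a i))).edges) : ℕ) : ZMod 2) := rfl
    rw [h6, List.count_cons, List.count_eq_zero_of_not_mem h5]
    by_cases hde : d = D (e (a i))
    · rw [if_pos hde, hde]
      simp [D, Dart.edge]
    · rw [if_neg hde]
      have : ¬ s(h, y (e (a i))) = d.edge := by
        intro h7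
        apply hde
        obtain ⟨⟨u, v⟩, huv⟩ := d
        have hu : u = h := hd
        subst hu
        have h8 : s(u, y (e (a i))) = s(u, v) := h7
        have h9 : y (e (a i)) = v := Sym2.congr_right.1 h8
        subst h9
        rfl
      simp [this]
  have hit : ∀ i, (σ^[i] d0).fst = h := by
    intro i
    induction i with
    | zero => rfl
    | succ i ih => rw [Function.iterate_succ_apply', hσ.fst, ih]
  let φ : ℕ → ZMod 2 := fun i => s ⟦σ^[i] d0⟧
  have hstep : ∀ τ, φ (τ + 1) = φ τ + ∑ i, c i * zz i (eOf (σ^[τ] d0)) := by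
    intro τ
    show s ⟦σ^[τ + 1] d0⟧ = s ⟦σ^[τ] d0⟧ + _
    rw [hs, Function.iterate_succ_apply', ← face_eq', ← add_assoc, CharTwo.add_self_eq_zero,
      zero_add]
  have hiff : ∀ τ, τ < Function.minimalPeriod σ d0 → ∀ k, σ^[τ] d0 = D k ↔ τ = pos k := by
    intro τ hτ k
    constructor
    · intro h5
      rw [← hpos2 k] at h5
      exact Function.iterate_injOn_Iio_minimalPeriod hτ (hpos1 k) h5
    · rintro rfl
      exact hpos2 k
  have hlt : ∀ k l : Fin (2 * m + 2), pos (e k) < pos (e l) ↔ k.val < l.val := fun k l =>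
    hmono.lt_iff_lt
  apply hc0
  funext i
  have hv : ∀ τ, pos (e (c' i.castSucc)) ≤ τ → τ < pos (e (c' i.succ)) →
      ∑ j, c j * zz j (eOf (σ^[τ] d0)) = if τ = pos (e (a i.succ)) then c i else 0 := by
    intro τ h5 h6
    have hτ : τ < Function.minimalPeriod σ d0 := h6.trans (hpos1 _)
    have h7 : ∀ j : Fin m, zz j (eOf (σ^[τ] d0)) = if τ = pos (e (a j.succ)) then 1 else 0 := by
      intro j
      show chain (P j.succ) (eOf (σ^[τ] d0)) + chain (P 0) (eOf (σ^[τ] d0)) = _
      rw [hch _ _ (hit τ), hch _ _ (hit τ)]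
      have h8 : ¬ σ^[τ] d0 = D (e (a 0)) := by
        rw [hiff τ hτ]
        have := (hlt (a 0) (c' i.castSucc)).2 (by simp [a, c'])
        omega
      rw [if_neg h8, add_zero]
      simp only [hiff τ hτ]
    rw [Finset.sum_eq_single i]
    · rw [h7]
      split_ifs <;> simp
    · intro j _ hji
      rw [h7, if_neg, mul_zero]
      intro h8
      have h9 : (j : ℕ) ≠ i := fun h => hji (Fin.ext h)
      rcases lt_or_gt_of_ne h9 with h10 | h10
      · have := (hlt (a j.succ) (c' i.castSucc)).2 (by simp [a, c']; omega)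
        omega
      · have := (hlt (c' i.succ) (a j.succ)).2 (by simp [a, c']; omega)
        omega
    · intro h
      exact absurd (Finset.mem_univ _) h
  have l1 := (hlt (c' i.castSucc) (a i.succ)).2 (by simp [a, c']; omega)
  have l2 := (hlt (a i.succ) (c' i.succ)).2 (by simp [a, c'])
  have r1 : φ (pos (e (a i.succ))) = φ (pos (e (c' i.castSucc))) :=
    run_const φ l1.le fun τ h5 h6 => by
      rw [hstep, hv τ h5 (by omega), if_neg (by omega), add_zero]
  have r2 : φ (pos (e (c' i.succ))) = φ (pos (e (a i.succ)) + 1) :=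
    run_const φ l2 fun τ h5 h6 => by
      rw [hstep, hv τ (by omega) h6, if_neg (by omega), add_zero]
  rw [hstep, hv _ l1.le l2, if_pos rfl, r1] at r2
  have r3 : φ (pos (e (c' i.succ))) = φ (pos (e (c' i.castSucc))) := by
    show s ⟦σ^[_] d0⟧ = s ⟦σ^[_] d0⟧
    rw [hpos2, hpos2]
    exact hb _ _
  rw [r3] at r2
  exact left_eq_add.mp r2

theorem lift_walk {V : Type} {G : SimpleGraph V} (sg : Sym2 V → Bool) {x y : V} (w : G.Walk x y) :
    ∀ β : Bool, ∃ (γ : Bool) (w' : (ST.H645.cover G sg).Walk (x, β) (y, γ)),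
      ∀ z ∈ w'.support, z.1 ∈ w.support := by
  induction w with
  | nil => exact fun β => ⟨β, Walk.nil, by simp⟩
  | @cons u a v hua r ih =>
    intro β
    obtain ⟨γ, w', hw'⟩ := ih (xor β (sg s(u, a)))
    have hadj : (ST.H645.cover G sg).Adj (u, β) (a, xor β (sg s(u, a))) := ⟨hua, rfl⟩
    refine ⟨γ, Walk.cons hadj w', fun z hz => ?_⟩
    rw [Walk.support_cons, List.mem_cons] at hz ⊢
    rcases hz with rfl | hz
    · exact Or.inl rfl
    · exact Or.inr (hw' z hz)

theorem noFan_sign {V : Type} [Finite V] {G : SimpleGraph V} {g : ℕ} {σ : Equiv.Perm G.Dart}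
    {sg : Sym2 V → Bool} (hc : G.Connected) (hσ : SignMap g G σ sg) (h : V) :
    ¬ Fan G (G.neighborSet h) {h} (4 * (2 * (2 * g + 1) + 2)) := by
  classical
  rintro ⟨y, t, b, p, q, h1, h2, h3, h4⟩
  choose γ p' hp' using fun k => lift_walk sg (p k) (sg s(h, y k))
  choose δ q' hq' using fun k => lift_walk sg (q k) (sg s(h, y k))
  obtain ⟨⟨γ0, δ0⟩, hfib⟩ := Fintype.exists_le_card_fiber_of_mul_le_card
    (f := fun k => (γ k, δ k)) (n := 2 * (2 * g + 1) + 2) (by simp)
  obtain ⟨S, hS, hcard⟩ := Finset.exists_subset_card_eq hfib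
  let e : Fin (2 * (2 * g + 1) + 2) ↪o _ := S.orderEmbOfFin hcard
  have he : ∀ k, γ (e k) = γ0 ∧ δ (e k) = δ0 := by
    intro k
    have h5 := hS (S.orderEmbOfFin_mem hcard k)
    simpa using h5
  refine noFan_surf (ST.H645.cover_connected hc hσ.odd) (ST.H645.surf_cover hσ) (h, false)
    (Nat.lt_succ_self _)
    ⟨fun k => (y (e k), sg s(h, y (e k))), (t, γ0), (b, δ0),
      fun k => (p' (e k)).copy rfl (by rw [(he k).1]),
      fun k => (q' (e k)).copy rfl (by rw [(he k).2]), fun k => ⟨h1 _, by simp⟩,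
      fun k z hz hz' => ?_, fun k z hz hz' => ?_, fun k l hkl z hz hz' => ?_⟩
  · rw [Walk.support_copy] at hz
    exact h2 _ _ (hp' _ z hz) (congrArg Prod.fst hz')
  · rw [Walk.support_copy] at hz
    exact h3 _ _ (hq' _ z hz) (congrArg Prod.fst hz')
  · rw [Walk.support_copy] at hz hz'
    exact h4 _ _ (fun h => hkl (e.injective h)) _ (hp' _ z hz) (hq' _ z hz')

theorem Fan.mono {V : Type} {G : SimpleGraph V} {Y Z : Set V} {m n : ℕ} (h : Fan G Y Z n)
    (hmn : m ≤ n) : Fan G Y Z m := by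
  obtain ⟨y, t, b, p, q, h1, h2, h3, h4⟩ := h
  exact ⟨fun k => y (k.castLE hmn), t, b, fun k => p _, fun k => q _, fun k => h1 _,
    fun k => h2 _, fun k => h3 _, fun k l hkl => h4 _ _ fun e => hkl (Fin.castLE_injective hmn e)⟩

end Vale.Agent.P235L
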